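import Vale.Agent.P280X.Kl.Pta
import Vale.Agent.P280Z.Hr.Pto
import Vale.Agent.P280Z.Ld.All
import Vale.Agent.P281Z.Pb.Ex

/-!
# P280V: the top Segre number from the rows of the block KL
-/

open Vale.Agent.P281Z Vale.Agent.P280Z Vale.Agent.P280X.Kl

namespace Vale.Agent.P280V

theorem seg_of (ptb : PTB) (sga : SGA) (topn : TOPN) (kl : KL) : SEG := by
  intro T th n V cl h h0 hr
  have hT := th.ok
  cases n with
  | zero => exact h0 ▸ hT.po.wp_int (hT.po.wp_one V)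
  | succ d =>
    obtain ⟨P⟩ := Pb.pbex (d + 1) d (d + 1 + d) V (cotV V) rfl
    obtain ⟨hc, hp, hn⟩ := pta d V P cl
    obtain ⟨K, φ, ψ, hK, hs⟩ := ptb d V P
    have hV : V.Prj := ⟨_, PtaH.lb_inv P277Z.Slc.isLB_can, cl.1.2⟩
    rw [← sga T hT d V P.P P.pr P.H K φ ψ h ⟨P.hol, P.sbm⟩ P.lb hK hs (Hr.pto Ld.ld hT P hV)
      ⟨h0, hr⟩]
    exact topn T hT _ P.P P.H hp P.lb (kl _ P.P P.H hc hp P.lb hn)

end Vale.Agent.P280V
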